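import Vale.Agent.P336.R2.H746.CylSpec

/-!
# P336: functions which are rarely false are rarely false on random words
-/

namespace Vale.Agent.P336.Cyl

open Finset
open scoped BigOperators

theorem zmod_two_eq {a b : ZMod 2} (h : decide (a = 1) = decide (b = 1)) : a = b := by
  revert a b
  decide

/-- The word determines `s` and `x`. -/
theorem word_inj {N q p ρ r : ℕ} (hN : 2 * q + r ≤ N) {s s' : Fin r → ZMod 2}
    {x x' : Fin (N - (2 * q + r)) → ZMod 2}
    (h : word N q p ρ r s x = word N q p ρ r s' x') : s = s' ∧ x = x' := by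
  have hs : ∀ (s : Fin r → ZMod 2) (x : Fin (N - (2 * q + r)) → ZMod 2) (d : Fin r)
      (hd : 2 * q + (d : ℕ) < N), word N q p ρ r s x ⟨2 * q + d, hd⟩ = decide (s d = 1) := by
    intro s x d hd
    rw [word, if_neg (by simp; omega), if_neg (by simp), dif_pos (by simp)]
    congr 2
    exact congrArg s (Fin.ext (by simp))
  have hx : ∀ (s : Fin r → ZMod 2) (x : Fin (N - (2 * q + r)) → ZMod 2)
      (v : Fin (N - (2 * q + r))) (hv : 2 * q + r + (v : ℕ) < N),
      word N q p ρ r s x ⟨2 * q + r + v, hv⟩ = decide (x v = 1) := by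
    intro s x v hv
    rw [word, if_neg (by simp; omega), if_neg (by simp; omega), dif_neg (by simp; omega),
      dif_pos (by simp)]
    congr 2
    exact congrArg x (Fin.ext (by simp))
  constructor
  · funext d
    have hd : 2 * q + (d : ℕ) < N := by have := d.2; omega
    exact zmod_two_eq (by rw [← hs s x d hd, h, hs])
  · funext v
    have hv : 2 * q + r + (v : ℕ) < N := by have := v.2; omega
    exact zmod_two_eq (by rw [← hx s x v hv, h, hx])

open Classical in
/-- (X1) Finitely many functions which are false on few inputs are rarely false on words. -/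
theorem bad_le {N q p ρ r k H : ℕ} (hN : 2 * q + r ≤ N) (G : Finset ((Fin N → Bool) → Bool))
    (hG : ∀ g ∈ G, (univ.filter fun x : Fin N → Bool => g x = false).card * 2 ^ k ≤ 2 ^ N)
    (hH : G.card ≤ H) :
    𝔼 s : Fin r → ZMod 2, 𝔼 x : Fin (N - (2 * q + r)) → ZMod 2,
      (if ∃ g ∈ G, g (word N q p ρ r s x) = false then (1 : ℝ) else 0) ≤
        (H : ℝ) * 2 ^ (2 * q) / 2 ^ k := by
  have hcs : (Fintype.card (Fin r → ZMod 2) : ℝ) = 2 ^ r := by simp
  have hcx : (Fintype.card (Fin (N - (2 * q + r)) → ZMod 2) : ℝ) = 2 ^ (N - (2 * q + r)) := by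
    simp
  rw [Fintype.expect_eq_sum_div_card, hcs]
  simp_rw [Fintype.expect_eq_sum_div_card, hcx]
  rw [← Finset.sum_div, div_div]
  have h1 : ∀ g ∈ G, ∑ s : Fin r → ZMod 2, ∑ x : Fin (N - (2 * q + r)) → ZMod 2,
      (if g (word N q p ρ r s x) = false then (1 : ℝ) else 0) ≤ 2 ^ N / 2 ^ k := by
    intro g hg
    have e1 : ∑ s : Fin r → ZMod 2, ∑ x : Fin (N - (2 * q + r)) → ZMod 2,
        (if g (word N q p ρ r s x) = false then (1 : ℝ) else 0) =
        ((univ.filter fun y : (Fin r → ZMod 2) × (Fin (N - (2 * q + r)) → ZMod 2) =>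
          g (word N q p ρ r y.1 y.2) = false).card : ℝ) := by
      rw [Finset.card_filter, Nat.cast_sum, ← Finset.univ_product_univ, Finset.sum_product]
      refine Finset.sum_congr rfl fun s _ => Finset.sum_congr rfl fun x _ => ?_
      split_ifs <;> simp
    have e2 : (univ.filter fun y : (Fin r → ZMod 2) × (Fin (N - (2 * q + r)) → ZMod 2) =>
          g (word N q p ρ r y.1 y.2) = false).card ≤
        (univ.filter fun x : Fin N → Bool => g x = false).card := by
      refine Finset.card_le_card_of_injOn (fun y => word N q p ρ r y.1 y.2) ?_ ?_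
      · intro y hy
        simpa using hy
      · intro y _ y' _ hyy
        obtain ⟨h3, h4⟩ := word_inj hN hyy
        exact Prod.ext h3 h4
    have e3 : ((univ.filter fun x : Fin N → Bool => g x = false).card : ℝ) * 2 ^ k ≤ 2 ^ N := by
      exact_mod_cast hG g hg
    rw [e1, le_div_iff₀ (by positivity)]
    refine le_trans (mul_le_mul_of_nonneg_right ?_ (by positivity)) e3
    exact_mod_cast e2
  have h2 : ∑ s : Fin r → ZMod 2, ∑ x : Fin (N - (2 * q + r)) → ZMod 2,
      (if ∃ g ∈ G, g (word N q p ρ r s x) = false then (1 : ℝ) else 0) ≤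
      ∑ g ∈ G, ∑ s : Fin r → ZMod 2, ∑ x : Fin (N - (2 * q + r)) → ZMod 2,
        (if g (word N q p ρ r s x) = false then (1 : ℝ) else 0) := by
    have e4 : ∑ g ∈ G, ∑ s : Fin r → ZMod 2, ∑ x : Fin (N - (2 * q + r)) → ZMod 2,
        (if g (word N q p ρ r s x) = false then (1 : ℝ) else 0) =
        ∑ s : Fin r → ZMod 2, ∑ x : Fin (N - (2 * q + r)) → ZMod 2, ∑ g ∈ G,
        (if g (word N q p ρ r s x) = false then (1 : ℝ) else 0) := by
      rw [Finset.sum_comm]
      exact Finset.sum_congr rfl fun s _ => Finset.sum_comm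
    rw [e4]
    refine Finset.sum_le_sum fun s _ => Finset.sum_le_sum fun x _ => ?_
    split_ifs with h
    · obtain ⟨g, hg, hgw⟩ := h
      refine le_trans ?_ (Finset.single_le_sum (f := fun g : (Fin N → Bool) → Bool =>
        if g (word N q p ρ r s x) = false then (1 : ℝ) else 0)
        (fun g' _ => by positivity) hg)
      simp [hgw]
    · exact Finset.sum_nonneg fun g _ => by positivity
  have h3 : ∑ g ∈ G, ∑ s : Fin r → ZMod 2, ∑ x : Fin (N - (2 * q + r)) → ZMod 2,
        (if g (word N q p ρ r s x) = false then (1 : ℝ) else 0) ≤ H * (2 ^ N / 2 ^ k) := by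
    refine (Finset.sum_le_card_nsmul _ _ _ h1).trans ?_
    rw [nsmul_eq_mul]
    refine mul_le_mul_of_nonneg_right ?_ (by positivity)
    exact_mod_cast hH
  have h4 : (2 : ℝ) ^ N = 2 ^ (2 * q) * (2 ^ (N - (2 * q + r)) * 2 ^ r) := by
    rw [← pow_add, ← pow_add]
    congr 1
    omega
  rw [div_le_iff₀ (by positivity)]
  refine (h2.trans h3).trans (le_of_eq ?_)
  rw [h4]
  ring

end Vale.Agent.P336.Cyl
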