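import Vale.Agent.P336.H567.Expansion

/-!
# P336: a conjunction of functions of few variables is a conjunction of narrow clauses
-/

namespace Vale.Agent.P336.Cyl

open Finset Vale.Agent.P336.Expansion

/-- (W2) A conjunction of functions of at most `R` variables is a conjunction of clauses with at
most `R` literals. -/
theorem exists_clauses {V : Type} [Fintype V] [DecidableEq V] {B : Type} [Fintype B] (R : ℕ)
    (β : B → (V → Bool) → Prop) (D : B → Finset V) (hD : ∀ b, (D b).card ≤ R)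
    (hβ : ∀ b z z', (∀ v ∈ D b, z v = z' v) → (β b z ↔ β b z')) :
    ∃ (I : Finset ℕ) (C : ℕ → Cl V), (∀ i ∈ I, (C i).S.card ≤ R) ∧
      ∀ z, ((∀ b, β b z) → ∏ i ∈ I, ind (C i) z = 1) ∧
        ((¬ ∀ b, β b z) → ∏ i ∈ I, ind (C i) z = 0) := by
  classical
  let J : Type := Σ b : B, {z : V → Bool // ¬ β b z}
  let e : J ≃ Fin (Fintype.card J) := Fintype.equivFin J
  let C : ℕ → Cl V := fun i => if h : i < Fintype.card J then
    ⟨D (e.symm ⟨i, h⟩).1, (e.symm ⟨i, h⟩).2.1⟩ else ⟨∅, fun _ => false⟩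
  have hC : ∀ j : J, C (e j) = ⟨D j.1, j.2.1⟩ := by
    intro j
    have h : ((e j : Fin (Fintype.card J)) : ℕ) < Fintype.card J := (e j).2
    change (if h : ((e j : Fin (Fintype.card J)) : ℕ) < Fintype.card J then
      (⟨D (e.symm ⟨_, h⟩).1, (e.symm ⟨_, h⟩).2.1⟩ : Cl V) else ⟨∅, fun _ => false⟩) = _
    rw [dif_pos h, Fin.eta, Equiv.symm_apply_apply]
  have hI : ∀ i ∈ range (Fintype.card J), ∃ j : J, C i = ⟨D j.1, j.2.1⟩ := by
    intro i hi
    refine ⟨e.symm ⟨i, Finset.mem_range.1 hi⟩, ?_⟩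
    have := hC (e.symm ⟨i, Finset.mem_range.1 hi⟩)
    rwa [Equiv.apply_symm_apply] at this
  refine ⟨range (Fintype.card J), C, fun i hi => ?_, fun z => ⟨fun hz => ?_, fun hz => ?_⟩⟩
  · obtain ⟨j, hj⟩ := hI i hi
    rw [hj]
    exact hD _
  · refine Finset.prod_eq_one fun i hi => ?_
    obtain ⟨j, hj⟩ := hI i hi
    rw [hj]
    unfold ind
    rw [if_neg]
    intro h
    exact j.2.2 ((hβ j.1 z j.2.1 h).1 (hz j.1))
  · obtain ⟨b, hb⟩ := not_forall.1 hz
    refine Finset.prod_eq_zero (i := (e ⟨b, z, hb⟩ : ℕ)) (Finset.mem_range.2 (e ⟨b, z, hb⟩).2) ?_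
    rw [hC]
    unfold ind
    rw [if_pos]
    intro v _
    rfl

end Vale.Agent.P336.Cyl
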